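import Mathlib

/-! Lemmas for P050: correlation inequality on lattices, counting proper 2-colourings. -/

namespace Vale.Agent.H7.P050

open Finset Classical

/-- average -/
noncomputable def avg {L : Type} [Fintype L] (f : L → ℝ) : ℝ := (∑ z, f z) / Fintype.card L

theorem avg_mul_le {L : Type} [Fintype L] [Nonempty L] [DistribLattice L] (f g : L → ℝ)
    (hf0 : 0 ≤ f) (hg0 : 0 ≤ g) (hf : Monotone f) (hg : Monotone g) :
    avg f * avg g ≤ avg (fun z => f z * g z) := by
  have h := fkg (α := L) (β := ℝ) f g (fun _ => 1) (fun _ => zero_le_one) hf0 hg0 hf hg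
    (fun a b => by simp)
  simp only [one_mul, Finset.sum_const, Finset.card_univ, nsmul_eq_mul, mul_one] at h
  unfold avg
  have hc : (0 : ℝ) < Fintype.card L := by exact_mod_cast Fintype.card_pos
  rw [div_mul_div_comm, div_le_div_iff₀ (by positivity) hc]
  nlinarith

theorem avg_nonneg {L : Type} [Fintype L] (f : L → ℝ) (hf : 0 ≤ f) : 0 ≤ avg f :=
  div_nonneg (Finset.sum_nonneg fun z _ => hf z) (Nat.cast_nonneg _)

theorem avg_prod_le {L : Type} [Fintype L] [Nonempty L] [DistribLattice L] {ι : Type}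
    (S : Finset ι) (f : ι → L → ℝ) (hf0 : ∀ i, 0 ≤ f i) (hf : ∀ i, Monotone (f i)) :
    ∏ i ∈ S, avg (f i) ≤ avg (fun z => ∏ i ∈ S, f i z) := by
  have hc : (0 : ℝ) < Fintype.card L := by exact_mod_cast Fintype.card_pos
  induction S using Finset.induction_on with
  | empty => simp [avg, hc.ne']
  | insert a S ha ih =>
    rw [Finset.prod_insert ha]
    have h1 : avg (f a) * avg (fun z => ∏ i ∈ S, f i z) ≤
        avg (fun z => f a z * ∏ i ∈ S, f i z) := by
      apply avg_mul_le _ _ (hf0 a) (fun z => Finset.prod_nonneg fun i _ => hf0 i z) (hf a)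
      intro z w hzw
      exact Finset.prod_le_prod (fun i _ => hf0 i z) (fun i _ => hf i hzw)
    have h2 : (fun z => ∏ i ∈ insert a S, f i z) = fun z => f a z * ∏ i ∈ S, f i z := by
      funext z; rw [Finset.prod_insert ha]
    rw [h2]
    exact (mul_le_mul_of_nonneg_left ih (avg_nonneg _ (hf0 a))).trans h1

theorem avg_eval {V X : Type} [Fintype V] [Fintype X] [Nonempty X] (u : V) (h : X → ℝ) :
    avg (fun x : V → X => h (x u)) = avg h := by
  have h1 : ∑ x : V → X, h (x u) = ∑ x : V → X, ∏ w, (if w = u then h (x w) else 1) := by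
    apply Finset.sum_congr rfl
    intro x _
    rw [Finset.prod_ite_eq' univ u (fun w => h (x w))]
    simp
  have h2 : ∑ x : V → X, ∏ w, (if w = u then h (x w) else 1) =
      ∏ w : V, ∑ a : X, (if w = u then h a else 1) := by
    rw [Finset.prod_univ_sum]
    simp only [Fintype.piFinset_univ]
  have h3 : ∏ w : V, ∑ a : X, (if w = u then h a else 1) =
      (∑ a, h a) * (Fintype.card X : ℝ) ^ (Fintype.card V - 1) := by
    rw [← Finset.mul_prod_erase univ _ (Finset.mem_univ u)]
    congr 1
    · simp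
    · rw [Finset.prod_congr rfl (g := fun _ => (Fintype.card X : ℝ))]
      · rw [Finset.prod_const, Finset.card_erase_of_mem (Finset.mem_univ u), Finset.card_univ]
      · intro w hw
        simp [Finset.ne_of_mem_erase hw]
  unfold avg
  rw [h1, h2, h3, Fintype.card_fun]
  have hX : (0 : ℝ) < Fintype.card X := by exact_mod_cast Fintype.card_pos
  have hV : 1 ≤ Fintype.card V := Fintype.card_pos_iff.mpr ⟨u⟩
  push_cast
  have h4 : (Fintype.card X : ℝ) ^ Fintype.card V =
      Fintype.card X * (Fintype.card X : ℝ) ^ (Fintype.card V - 1) := by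
    rw [← pow_succ']; congr 1; omega
  rw [h4]
  field_simp

theorem avg_pair {A B X Y : Type} [Fintype A] [Fintype B] [Fintype X] [Fintype Y] [Nonempty X]
    [Nonempty Y] (u : A) (v : B) (g : X → Y → ℝ) :
    avg (fun z : (A → X) × (B → Y) => g (z.1 u) (z.2 v)) =
      (∑ x, ∑ y, g x y) / (Fintype.card X * Fintype.card Y) := by
  have h1 := avg_eval (V := A) (X := X) u (fun x => avg (fun y : B → Y => g x (y v)))
  have h2 : ∀ x, avg (fun y : B → Y => g x (y v)) = avg (fun y => g x y) :=
    fun x => avg_eval v (fun y => g x y)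
  simp only [h2] at h1
  have h3 : avg (fun z : (A → X) × (B → Y) => g (z.1 u) (z.2 v)) =
      avg (fun x : A → X => avg (fun y : B → Y => g (x u) (y v))) := by
    unfold avg
    rw [Fintype.sum_prod_type, Fintype.card_prod]
    push_cast
    rw [← Finset.sum_div, div_div, mul_comm]
  rw [h3]
  simp only [h2]
  rw [h1]
  unfold avg
  rw [← Finset.sum_div, div_div, mul_comm (Fintype.card Y : ℝ)]

/-- the two sides of a colouring -/
abbrev SA {V : Type} (χ : V → Bool) : Type := {v : V // χ v = true}
abbrev SB {V : Type} (χ : V → Bool) : Type := {v : V // χ v = false}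

/-- the edges, as pairs -/
abbrev PE {V : Type} (H : SimpleGraph V) (χ : V → Bool) : Type :=
  {p : SA χ × SB χ // H.Adj p.1.1 p.2.1}

/-- the pairs of maps which respect all edges -/
abbrev Good {V X Y : Type} (H : SimpleGraph V) (R : X → Y → Prop) (χ : V → Bool) : Type :=
  {z : (SA χ → X) × (SB χ → Y) // ∀ p : PE H χ, R (z.1 p.1.1) (z.2 p.1.2)}

/-- the density of `R` -/
noncomputable def rdens {X Y : Type} [Fintype X] [Fintype Y] (R : X → Y → Prop) : ℝ :=
  (∑ x : X, ∑ y : Y, if R x y then (1 : ℝ) else 0) / (Fintype.card X * Fintype.card Y)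

theorem sum_prod_ind {L I : Type} [Fintype L] [Fintype I] (Q : I → L → Prop) :
    (∑ z, ∏ i, if Q i z then (1 : ℝ) else 0) = (Fintype.card {z // ∀ i, Q i z} : ℝ) := by
  rw [Fintype.card_subtype, Finset.card_eq_sum_ones, Finset.sum_filter]
  push_cast
  apply Finset.sum_congr rfl
  intro z _
  rw [Finset.prod_boole]
  simp

theorem good_ge' {A B I X Y : Type} [Fintype A] [Fintype B] [Fintype I] [Fintype X] [Fintype Y]
    [Nonempty X] [Nonempty Y] [DistribLattice X] [DistribLattice Y] (R : X → Y → Prop)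
    (hR : ∀ x x' y y', x ≤ x' → y ≤ y' → R x y → R x' y') (a : I → A) (b : I → B) :
    (Fintype.card X : ℝ) ^ Fintype.card A * (Fintype.card Y : ℝ) ^ Fintype.card B *
      rdens R ^ Fintype.card I ≤
      (Fintype.card {z : (A → X) × (B → Y) // ∀ i, R (z.1 (a i)) (z.2 (b i))} : ℝ) := by
  have hX : (0 : ℝ) < Fintype.card X := by exact_mod_cast Fintype.card_pos
  have hY : (0 : ℝ) < Fintype.card Y := by exact_mod_cast Fintype.card_pos
  have h0 : ∀ i : I, 0 ≤ (fun z : (A → X) × (B → Y) =>
      if R (z.1 (a i)) (z.2 (b i)) then (1 : ℝ) else 0) := by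
    intro i z
    simp only [Pi.zero_apply]
    split_ifs <;> simp
  have hm : ∀ i : I, Monotone (fun z : (A → X) × (B → Y) =>
      if R (z.1 (a i)) (z.2 (b i)) then (1 : ℝ) else 0) := by
    intro i z w hzw
    simp only
    by_cases h1 : R (z.1 (a i)) (z.2 (b i))
    · have h2 := hR _ _ _ _ (hzw.1 (a i)) (hzw.2 (b i)) h1
      simp [h1, h2]
    · simp only [h1, if_false]
      split_ifs <;> simp
  have h1 := avg_prod_le (univ : Finset I) _ h0 hm
  have h2 : ∀ i : I, avg (fun z : (A → X) × (B → Y) =>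
      if R (z.1 (a i)) (z.2 (b i)) then (1 : ℝ) else 0) = rdens R := fun i =>
    avg_pair (a i) (b i) (fun x y => if R x y then (1 : ℝ) else 0)
  simp only [h2, Finset.prod_const, Finset.card_univ] at h1
  have h3 := sum_prod_ind (L := (A → X) × (B → Y)) (fun (i : I) z => R (z.1 (a i)) (z.2 (b i)))
  unfold avg at h1
  rw [h3, Fintype.card_prod, Fintype.card_fun, Fintype.card_fun] at h1
  push_cast at h1
  rw [le_div_iff₀ (by positivity)] at h1
  linarith

theorem good_ge'' {A B I X Y : Type} [Finite A] [Finite B] [Finite I] [Fintype X] [Fintype Y]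
    [Nonempty X] [Nonempty Y] [DistribLattice X] [DistribLattice Y] (R : X → Y → Prop)
    (hR : ∀ x x' y y', x ≤ x' → y ≤ y' → R x y → R x' y') (a : I → A) (b : I → B) :
    (Nat.card X : ℝ) ^ Nat.card A * (Nat.card Y : ℝ) ^ Nat.card B *
      rdens R ^ Nat.card I ≤
      (Nat.card {z : (A → X) × (B → Y) // ∀ i, R (z.1 (a i)) (z.2 (b i))} : ℝ) := by
  have := Fintype.ofFinite A
  have := Fintype.ofFinite B
  have := Fintype.ofFinite I
  rw [Nat.card_eq_fintype_card, Nat.card_eq_fintype_card, Nat.card_eq_fintype_card,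
    Nat.card_eq_fintype_card, Nat.card_eq_fintype_card, Nat.card_eq_fintype_card]
  exact good_ge' R hR a b

theorem edges_card {V : Type} (H : SimpleGraph V) (χ : V → Bool)
    (hχ : ∀ u v, H.Adj u v → χ u ≠ χ v) : Nat.card (PE H χ) = Nat.card H.edgeSet := by
  let F : PE H χ → H.edgeSet := fun q => ⟨s(q.1.1.1, q.1.2.1), q.2⟩
  refine Nat.card_eq_of_bijective F ?_
  constructor
  · rintro ⟨⟨⟨u, hu⟩, ⟨v, hv⟩⟩, h⟩ ⟨⟨⟨u', hu'⟩, ⟨v', hv'⟩⟩, h'⟩ heq
    have heq2 : s(u, v) = s(u', v') := congrArg Subtype.val heq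
    rw [Sym2.eq_iff] at heq2
    rcases heq2 with ⟨h1, h2⟩ | ⟨h1, h2⟩
    · subst h1; subst h2; rfl
    · subst h1; rw [hu] at hv'; simp at hv'
  · rintro ⟨e, he⟩
    induction e using Sym2.ind with
    | _ u v =>
      have hadj : H.Adj u v := he
      have hne := hχ u v hadj
      rcases hu : χ u with _ | _
      · have hv : χ v = true := by
          cases hv : χ v
          · rw [hu, hv] at hne; exact absurd rfl hne
          · rfl
        exact ⟨⟨(⟨v, hv⟩, ⟨u, hu⟩), hadj.symm⟩, Subtype.ext (Sym2.eq_swap)⟩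
      · have hv : χ v = false := by
          cases hv : χ v
          · rfl
          · rw [hu, hv] at hne; exact absurd rfl hne
        exact ⟨⟨(⟨u, hu⟩, ⟨v, hv⟩), hadj⟩, rfl⟩

/-- proper colourings -/
abbrev Prp {V : Type} (H : SimpleGraph V) : Type := {χ : V → Bool // ∀ u v, H.Adj u v → χ u ≠ χ v}

theorem card_SA_SB {V : Type} [Fintype V] (χ : V → Bool) :
    Nat.card (SA χ) + Nat.card (SB χ) = Fintype.card V := by
  rw [Nat.card_eq_fintype_card, Nat.card_eq_fintype_card, Fintype.card_subtype,
    Fintype.card_subtype, ← Finset.card_univ]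
  have h := Finset.card_filter_add_card_filter_not (s := (univ : Finset V)) (fun v => χ v = true)
  simpa using h

theorem aux1 : ∀ a b c d : Bool, xor a b = xor c d →
    xor (xor a c) true ≠ xor (xor b d) false := by decide
theorem aux2 : ∀ a b c d : Bool, xor a b = xor c d →
    xor (xor b d) false ≠ xor (xor a c) true := by decide
theorem aux3 : ∀ a b c d : Bool, xor (xor a c) d = xor (xor b c) d → a = b := by decide

/-- there are at least `2^(v-e)` proper colourings -/
theorem proper_ge {V : Type} [Fintype V] (H : SimpleGraph V) (χ0 : V → Bool)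
    (h0 : ∀ u v, H.Adj u v → χ0 u ≠ χ0 v) :
    2 ^ Fintype.card V ≤ Nat.card (Prp H) * 2 ^ Nat.card (PE H χ0) := by
  let δ : (V → Bool) → (PE H χ0 → Bool) := fun s q => xor (s q.1.1.1) (s q.1.2.1)
  have key := Finset.card_le_mul_card_image_of_maps_to (s := (univ : Finset (V → Bool)))
    (t := (univ : Finset (PE H χ0 → Bool))) (f := δ) (fun a _ => Finset.mem_univ _)
    (Nat.card (Prp H)) (by
      intro c _
      rcases Finset.eq_empty_or_nonempty (univ.filter (fun s => δ s = c)) with he | ⟨s1, hs1⟩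
      · rw [he]; simp
      · rw [Nat.card_eq_fintype_card, ← Finset.card_univ]
        have hs1' : δ s1 = c := by simpa using hs1
        let F : (V → Bool) → (V → Bool) := fun s v => xor (xor (s v) (s1 v)) (χ0 v)
        have hF : ∀ s, δ s = c → ∀ u v, H.Adj u v → F s u ≠ F s v := by
          intro s hs u v huv
          have hq : ∀ u v, χ0 u = true → χ0 v = false → H.Adj u v →
              xor (s u) (s v) = xor (s1 u) (s1 v) := by
            intro u v hu hv huv
            have := congrFun (hs.trans hs1'.symm) ⟨(⟨u, hu⟩, ⟨v, hv⟩), huv⟩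
            simpa [δ] using this
          have hne := h0 u v huv
          simp only [F]
          cases hu : χ0 u <;> cases hv : χ0 v
          · rw [hu, hv] at hne; exact absurd rfl hne
          · exact aux2 _ _ _ _ (hq v u hv hu huv.symm)
          · exact aux1 _ _ _ _ (hq u v hu hv huv)
          · rw [hu, hv] at hne; exact absurd rfl hne
        have hinj : Function.Injective F := by
          intro s s' h
          funext v
          exact aux3 _ _ _ _ (congrFun h v)
        refine Finset.card_le_card_of_injOn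
          (fun s => if h : δ s = c then (⟨F s, hF s h⟩ : Prp H) else ⟨χ0, h0⟩)
          (fun s _ => Finset.mem_coe.mpr (Finset.mem_univ _)) ?_
        intro s hs s' hs' heq
        have e1 : δ s = c := by simpa using hs
        have e2 : δ s' = c := by simpa using hs'
        simp only [dif_pos e1, dif_pos e2, Subtype.mk.injEq] at heq
        exact hinj heq)
  rw [Finset.card_univ, Finset.card_univ, Fintype.card_fun, Fintype.card_fun,
    Fintype.card_bool] at key
  rw [Nat.card_eq_fintype_card (α := PE H χ0)]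
  exact key

theorem weights_ge {V : Type} [Fintype V] (H : SimpleGraph V) (x y : ℝ) (hx : 0 < x)
    (hy : 0 < y) :
    (Nat.card (Prp H) : ℝ) * Real.sqrt (x * y) ^ Fintype.card V ≤
      ∑ χ : Prp H, x ^ Nat.card (SA χ.1) * y ^ Nat.card (SB χ.1) := by
  let ng : Prp H → Prp H := fun χ => ⟨fun v => !χ.1 v, fun u v h h2 => χ.2 u v h (by simpa using h2)⟩
  have hinv : Function.Involutive ng := by
    intro χ; apply Subtype.ext; funext v; simp [ng]
  have hA : ∀ χ : Prp H, Nat.card (SA (ng χ).1) = Nat.card (SB χ.1) := by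
    intro χ
    apply Nat.card_congr
    exact Equiv.subtypeEquivRight (fun v => by simp [ng])
  have hB : ∀ χ : Prp H, Nat.card (SB (ng χ).1) = Nat.card (SA χ.1) := by
    intro χ
    apply Nat.card_congr
    exact Equiv.subtypeEquivRight (fun v => by simp [ng])
  have h1 : ∑ χ : Prp H, x ^ Nat.card (SA χ.1) * y ^ Nat.card (SB χ.1) =
      ∑ χ : Prp H, x ^ Nat.card (SB χ.1) * y ^ Nat.card (SA χ.1) := by
    rw [← Equiv.sum_comp (hinv.toPerm ng)
      (fun χ : Prp H => x ^ Nat.card (SA χ.1) * y ^ Nat.card (SB χ.1))]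
    apply Finset.sum_congr rfl
    intro χ _
    simp only [Function.Involutive.coe_toPerm]
    rw [hA, hB]
  have h2 : ∀ χ : Prp H, 2 * Real.sqrt (x * y) ^ Fintype.card V ≤
      x ^ Nat.card (SA χ.1) * y ^ Nat.card (SB χ.1) +
        x ^ Nat.card (SB χ.1) * y ^ Nat.card (SA χ.1) := by
    intro χ
    set a := Nat.card (SA χ.1)
    set b := Nat.card (SB χ.1)
    have hab : a + b = Fintype.card V := card_SA_SB χ.1
    have hg : Real.sqrt (x * y) ^ 2 = x * y := Real.sq_sqrt (by positivity)
    set gg := Real.sqrt (x * y) ^ Fintype.card V with hgg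
    have hgg2 : gg ^ 2 = (x ^ a * y ^ b) * (x ^ b * y ^ a) := by
      rw [hgg, ← pow_mul, mul_comm (Fintype.card V) 2, pow_mul, hg, ← hab]; ring
    have hg0 : 0 ≤ gg := by positivity
    have hp1 : 0 < x ^ a * y ^ b := by positivity
    have hp2 : 0 < x ^ b * y ^ a := by positivity
    nlinarith [sq_nonneg (x ^ a * y ^ b - x ^ b * y ^ a)]
  have h3 : ∑ _χ : Prp H, 2 * Real.sqrt (x * y) ^ Fintype.card V ≤
      ∑ χ : Prp H, (x ^ Nat.card (SA χ.1) * y ^ Nat.card (SB χ.1) +
        x ^ Nat.card (SB χ.1) * y ^ Nat.card (SA χ.1)) :=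
    Finset.sum_le_sum (fun χ _ => h2 χ)
  rw [Finset.sum_add_distrib, ← h1, Finset.sum_const, Finset.card_univ, nsmul_eq_mul] at h3
  rw [Nat.card_eq_fintype_card]
  linarith

end Vale.Agent.H7.P050
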